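import Vale.Agent.P078.AllMasa.Step.Residual
import Vale.Agent.P078.AllMasa.Defect

/-! The average of the quadratic form over the smoothed noise is negative. -/

namespace Vale.Agent.P078.AllMasa.StepAux

set_option linter.unusedSectionVars false

open Filter Topology ComplexOrder MeasureTheory
open Vale.Agent.P078.Tracial

variable {M X : Type} [CStarAlgebra M] [PartialOrder M] [StarOrderedRing M]
variable [TopologicalSpace X] [CompactSpace X] [T2Space X] [TotallyDisconnectedSpace X]
variable {P : Prm M} {C : SCore M X}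
variable {r : ℕ}

theorem eventually_quad_le {s : Config M X r} (hs : StateOk P C s) (hg : ∀ c, P.Good C (s c))
    (hS : P.S = r * P.b0) (hr : 1 ≤ (r : ℝ) * P.t ^ 116) {p : C(X, ℝ)}
    (hpb : ∀ x, P.pmin ≤ p x ∧ p x ≤ P.pmax) {ε1 : ℝ}
    (hp : ∀ c, ∀ f : C(X, ℝ), (∀ x, 0 ≤ f x ∧ f x ≤ 1) → f * (s c).act = f →
      |P.VW C (s c) f - C.ig (p * P.Dc (s c) * f)| ≤ ε1)
    {d : LData X r} (hd : d.Ok) (hU : d.U = Config.U s) (hFN : ∀ c, (d.F c).FromNrm C)
    (hle : ∀ c x, d.act c x ≤ (s c).act x) {b : ℝ} (hbad : ∀ c, C.ig ((s c).act - d.act c) ≤ b)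
    {τ0 : ℝ} (hτ0 : 0 < τ0)
    (hsuper : ∀ c (f : C(X, ℝ)), 0 ≤ f →
      C.ig (p * (d.act c * (d.F c).K (d.act c * f))) + τ0 * C.ig (p * (d.act c * f))
        ≤ C.ig (p * (d.e c * (d.act c * f))))
    {δ : ℝ} (hδ : 0 ≤ δ) {K : ℝ} (hK : 0 ≤ K) (n : ℕ) {Rb : ℝ}
    (hres : ∀ᶠ π : DiscreteQuotient X in atBot, ∑ c, ∑ j : π,
      C.ig (resid P C s (d.P n (unitVec π c j)) * resid P C s (d.P n (unitVec π c j))) ≤ Rb)
    {ε : ℝ} (hε : 0 < ε) :
    ∀ᶠ π : DiscreteQuotient X in atBot,
      ∑ ci : Fin r × π, quad P C s p δ K (d.P n (unitVec π ci.1 ci.2))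
        ≤ -(12 * √r * P.Qmax * P.pmin * C.ig (Config.U s)) + r * (ε1 * (P.Λ + 1))
          + r * (P.pmax * P.Qmax * b) + δ * (r * (P.pmax * P.Qmax)) + K * Rb + ε := by
  classical
  let _ : MeasurableSpace X := borel X
  have _ : BorelSpace X := ⟨rfl⟩
  have hp0 : ∀ x, 0 < p x := fun x => P.pmin_pos.trans_le (hpb x).1
  obtain ⟨μ, hμf, hμr, hμi, hμn⟩ := exists_measure C hp0
  have hQ0 := Qmax_pos P
  have hpm := pmax_pos P
  have hact : ∀ c x, 0 ≤ d.act c x ∧ d.act c x ≤ 1 := fun c x => by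
    rcases hd.act_01 c x with h | h <;> rw [h] <;> norm_num
  have hnull : ∀ c k, ((d.F c).p k).NullPres μ := fun c k => by
    obtain ⟨v, hv⟩ := hFN c k
    exact hμn v _ hv
  have hsuper' : ∀ c (f : C(X, ℝ)), 0 ≤ f →
      (∫ x, d.act c x * (d.F c).K (d.act c * f) x ∂μ) + τ0 * ∫ x, d.act c x * f x ∂μ
        ≤ ∫ x, d.e c x * (d.act c x * f x) ∂μ := fun c f hf => by
    have h := hsuper c f hf
    rw [← hμi, ← hμi, ← hμi] at h
    simpa using h
  set N : ℝ := 1 + δ + (r : ℝ) * (P.Qmax + 2) + P.Qmax + δ * r + 1 with hN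
  set ε2 := ε / N with hε2
  have hN0 : 0 < N := by positivity
  have hε2p : 0 < ε2 := div_pos hε hN0
  have hQc : ∀ c x, (s c).act x = 1 → 0 ≤ P.Qc (s c) x ∧ P.Qc (s c) x ≤ P.Qmax := fun c x hx =>
    Prm.Qc_le (hs.col c) (hg c) hx
  set f2 : Fin r → C(X, ℝ) := fun c => p * (P.Qmax • (1 : C(X, ℝ)) - P.Qc (s c)) * (s c).act
    with hf2
  set f3 : Fin r → C(X, ℝ) := fun c => p * P.Qc (s c) * (s c).act with hf3
  have hf20 : ∀ c, 0 ≤ f2 c := fun c => ContinuousMap.le_def.2 fun x => by
    simp only [hf2, ContinuousMap.mul_apply, ContinuousMap.sub_apply, ContinuousMap.smul_apply,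
      ContinuousMap.one_apply, smul_eq_mul, mul_one, ContinuousMap.zero_apply]
    rcases (hs.col c).act_01 x with h | h <;> rw [h]
    · simp
    · rw [mul_one]; exact mul_nonneg (hp0 x).le (by linarith [(hQc c x h).2])
  have hf30 : ∀ c, 0 ≤ f3 c := fun c => ContinuousMap.le_def.2 fun x => by
    simp only [hf3, ContinuousMap.mul_apply, ContinuousMap.zero_apply]
    rcases (hs.col c).act_01 x with h | h <;> rw [h]
    · simp
    · rw [mul_one]; exact mul_nonneg (hp0 x).le (hQc c x h).1
  have hG : ∀ c, 0 ≤ ((s c).G : M) := fun c => (hs.col c).G_nonneg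
  filter_upwards [hres, eventually_defect_le hd hnull hτ0 hsuper' n hε2p,
    eventually_all.2 fun c => eventually_loss_le C hd hFN n c (hG c) (P.eP • P.R C (s c)) hε2p,
    eventually_all.2 fun c => eventually_sq_le C hd hFN n c (hf20 c) hε2p,
    eventually_all.2 fun c => eventually_sq_le C hd hFN n c (hf30 c) hε2p,
    eventually_all.2 fun c => eventually_sq_eq_diag C hd hFN n c p hε2p]
    with π hR hdef hloss h2 h3 hdiag
  set k : Fin r → π → Fin r → C(X, ℝ) := fun c' j => d.P n (unitVec π c' j) with hk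
  -- the first term
  have a1 : ∀ c, ∑ c', ∑ j : π, P.VG C (s c) (C.r (k c' j c) * ((s c).G : M) * C.r (k c' j c))
      ≤ C.ig (p * d.act c * (C.Er ((s c).G : M) * P.Dc (s c))) + ε1 * (P.Λ + 1) + ε2 := fun c => by
    have hR' := (R_isSelfAdjoint (hs.col c)).star_eq
    have e : ∀ x : M, C.tr ((P.eP • P.R C (s c)) * x * star (P.eP • P.R C (s c)))
        = P.VG C (s c) x := fun x => by
      rw [star_smul, star_trivial, hR']
      simp only [smul_mul_assoc, mul_smul_comm, smul_smul, C.tr_smul, Prm.VG, sq]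
    have h := hloss c
    simp only [e] at h
    refine h.trans (add_le_add ?_ le_rfl)
    set f := d.act c * C.Er ((s c).G : M) with hf
    have hfm : ∀ x, 0 ≤ f x ∧ f x ≤ P.Λ + 1 := fun x => by
      obtain ⟨h1, h2⟩ := Er_mem (C := C) (hG c) (hg c).G_le x
      simp only [hf, ContinuousMap.mul_apply]
      exact ⟨mul_nonneg (hact c x).1 h1,
        (mul_le_of_le_one_left h1 (hact c x).2).trans (by linarith)⟩
    have hfa : f * (s c).act = f := mul_ind_eq (hs.col c).act_01 fun x hx => by
      have := hle c x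
      have h0 : d.act c x = 0 := by linarith [(hact c x).1]
      simp [hf, h0]
    have h4 := (abs_le.1 (VW_price (hp c) (by linarith [P.Λ_pos]) hfm hfa)).2
    have h5 := VG_r_le_VW (P := P) (C := C) (s := s c)
      (ContinuousMap.le_def.2 fun x => (hfm x).1 : (0 : C(X, ℝ)) ≤ f)
    have e2 : p * d.act c * (C.Er ((s c).G : M) * P.Dc (s c)) = p * P.Dc (s c) * f := by
      rw [hf]; ring
    rw [e2]
    linarith
  -- the second term
  set S : Fin r → ℝ := fun c => ∑ c', ∑ j : π,
    C.ig (p * P.Qc (s c) * (s c).act * (k c' j c * k c' j c)) with hSdef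
  have a2 : ∀ c, P.Qmax * (∑ j : π, C.ig (p * (cellFn π j * d.P n (d.P n (unitVec π c j)) c))
        - ε2) - (C.ig (f2 c * d.act c) + ε2) ≤ S c := fun c => by
    have hd' := (abs_le.1 (hdiag c)).1
    have e : ∀ c' (j : π), p * P.Qc (s c) * (s c).act * (k c' j c * k c' j c)
        = P.Qmax • (p * (k c' j c * k c' j c)) - f2 c * (k c' j c * k c' j c) := fun c' j => by
      ext x
      have hs1 : k c' j c x * d.act c x = k c' j c x :=
        congrArg (fun f : C(X, ℝ) => f x) (P_supp hd n _ c)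
      have hx2 : (s c).act x * k c' j c x = k c' j c x := by
        rcases hd.act_01 c x with h | h
        · rw [h, mul_zero] at hs1; rw [← hs1, mul_zero]
        · have h' := hle c x
          rcases (hs.col c).act_01 x with h'' | h''
          · rw [h, h''] at h'; norm_num at h'
          · rw [h'', one_mul]
      simp only [hf2, ContinuousMap.mul_apply, ContinuousMap.sub_apply, ContinuousMap.smul_apply,
        ContinuousMap.one_apply, smul_eq_mul, mul_one]
      linear_combination p x * P.Qmax * k c' j c x * hx2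
    have e' : S c = P.Qmax * (∑ c', ∑ j : π, C.ig (p * (k c' j c * k c' j c)))
        - ∑ c', ∑ j : π, C.ig (f2 c * (k c' j c * k c' j c)) := by
      simp only [hSdef, e, C.ig_sub, C.ig_smul, Finset.sum_sub_distrib, ← Finset.mul_sum]
    rw [e']
    refine sub_le_sub (mul_le_mul_of_nonneg_left ?_ hQ0.le) (h2 c)
    linarith
  have a3 : ∀ c, S c ≤ P.pmax * P.Qmax + ε2 := fun c => by
    refine (h3 c).trans (add_le_add ?_ le_rfl)
    refine C.ig_le_of_le fun x => ?_
    simp only [hf3, ContinuousMap.mul_apply]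
    rcases (hs.col c).act_01 x with h | h <;> rw [h]
    · simpa using mul_nonneg hpm.le hQ0.le
    · rw [mul_one]
      refine (mul_le_of_le_one_right (mul_nonneg (hp0 x).le (hQc c x h).1) (hact c x).2).trans ?_
      exact mul_le_mul (hpb x).2 (hQc c x h).2 (hQc c x h).1 hpm.le
  have hdef' : (∑ c, C.ig (p * d.act c))
      - ∑ c, ∑ j : π, C.ig (p * (cellFn π j * d.P n (d.P n (unitVec π c j)) c))
      ≤ 4 * √r * C.ig (p * Config.U s) + ε2 := by
    have h1 : ∀ c, C.ig (p * d.act c)
        = ∑ j : π, C.ig (p * (cellFn π j * (d.act c * cellFn π j))) := fun c => by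
      rw [← C.ig_sum, ← Finset.mul_sum]
      congr 2
      have e : ∀ j : π, cellFn π j * (d.act c * cellFn π j) = d.act c * cellFn π j := fun j => by
        rw [mul_left_comm, cellFn_mul_cellFn, if_pos rfl]
      simp only [e, ← Finset.mul_sum, sum_cellFn, mul_one]
    have e : ∀ c (j : π), ∫ x, cellFn π j x
          * (d.act c x * cellFn π j x - d.P n (d.P n (unitVec π c j)) c x) ∂μ
        = C.ig (p * (cellFn π j * (d.act c * cellFn π j)))
          - C.ig (p * (cellFn π j * d.P n (d.P n (unitVec π c j)) c)) := fun c j => by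
      rw [← C.ig_sub, ← mul_sub, ← mul_sub, ← hμi]
      simp
    simp only [e, Finset.sum_sub_distrib, hμi, hU] at hdef
    simp only [h1]
    exact hdef
  have hgain : 16 * √r * P.Qmax * C.ig (p * Config.U s)
      ≤ (∑ c, C.ig (p * d.act c * (P.Qc (s c) - C.Er ((s c).G : M) * P.Dc (s c))))
        + r * (P.pmax * P.Qmax * b) := by
    have h1 : ∀ c, C.ig (p * (s c).act * (P.Qc (s c) - C.Er ((s c).G : M) * P.Dc (s c)))
        ≤ C.ig (p * d.act c * (P.Qc (s c) - C.Er ((s c).G : M) * P.Dc (s c)))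
          + P.pmax * P.Qmax * b := fun c => by
      refine le_trans ?_ (add_le_add le_rfl (mul_le_mul_of_nonneg_left (hbad c) (by positivity)))
      rw [← C.ig_smul, ← C.ig_add]
      refine C.ig_mono (ContinuousMap.le_def.2 fun x => ?_)
      simp only [ContinuousMap.mul_apply, ContinuousMap.sub_apply, ContinuousMap.add_apply,
        ContinuousMap.smul_apply, smul_eq_mul]
      rcases (hs.col c).act_01 x with h | h
      · have h0 : d.act c x = 0 := by linarith [(hact c x).1, hle c x]
        simp [h, h0]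
      · rw [h]
        have hγD : 0 ≤ C.Er ((s c).G : M) x * P.Dc (s c) x :=
          mul_nonneg (Er_mem (C := C) (hG c) (hg c).G_le x).1 (P.Dc_pos _ x).le
        have hd1 : 0 ≤ 1 - d.act c x := by linarith [(hact c x).2]
        have h5 : p x * (P.Qc (s c) x - C.Er ((s c).G : M) x * P.Dc (s c) x)
            ≤ P.pmax * P.Qmax := by
          refine le_trans (mul_le_mul_of_nonneg_left (sub_le_self _ hγD) (hp0 x).le) ?_
          exact mul_le_mul (hpb x).2 (hQc c x h).2 (hQc c x h).1 hpm.le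
        have h6 := mul_le_mul_of_nonneg_left h5 hd1
        linarith
    have hgx : C.ig ((16 * √r * P.Qmax) • (p * Config.U s))
        ≤ C.ig (∑ c, p * (s c).act * (P.Qc (s c) - C.Er ((s c).G : M) * P.Dc (s c))) := by
      refine C.ig_mono (ContinuousMap.le_def.2 fun x => ?_)
      simp only [ContinuousMap.smul_apply, ContinuousMap.mul_apply, smul_eq_mul,
        ContinuousMap.coe_sum, Finset.sum_apply, ContinuousMap.sub_apply]
      have h6 := mul_le_mul_of_nonneg_left (Prm.gain hs hg hS hr x) (hp0 x).le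
      rw [Finset.mul_sum] at h6
      simp only [mul_assoc] at h6 ⊢
      linarith
    rw [C.ig_smul, C.ig_sum] at hgx
    refine hgx.trans ((Finset.sum_le_sum fun c _ => h1 c).trans (le_of_eq ?_))
    simp [Finset.sum_add_distrib]
  have hsplit : ∀ c, C.ig (p * d.act c * (C.Er ((s c).G : M) * P.Dc (s c)))
      + C.ig (p * d.act c * (P.Qc (s c) - C.Er ((s c).G : M) * P.Dc (s c)))
      + C.ig (f2 c * d.act c) = P.Qmax * C.ig (p * d.act c) := fun c => by
    rw [← C.ig_add, ← C.ig_add, ← C.ig_smul]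
    congr 1
    ext x
    simp only [hf2, ContinuousMap.mul_apply, ContinuousMap.add_apply, ContinuousMap.sub_apply,
      ContinuousMap.smul_apply, ContinuousMap.one_apply, smul_eq_mul, mul_one]
    rcases hd.act_01 c x with h | h
    · simp [h]
    · have h' := hle c x
      rcases (hs.col c).act_01 x with h'' | h''
      · rw [h, h''] at h'; norm_num at h'
      · rw [h, h'']; ring
  have htot : ∑ ci : Fin r × π, quad P C s p δ K (k ci.1 ci.2)
      = (∑ c, ∑ c', ∑ j : π, P.VG C (s c) (C.r (k c' j c) * ((s c).G : M) * C.r (k c' j c)))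
        - (1 - δ) * ∑ c, S c
        + K * ∑ c', ∑ j : π, C.ig (resid P C s (k c' j) * resid P C s (k c' j)) := by
    have hsw : ∀ f : Fin r → Fin r → π → ℝ,
        ∑ c', ∑ j, ∑ c, f c c' j = ∑ c, ∑ c', ∑ j, f c c' j := fun f => by
      rw [Finset.sum_congr rfl fun c' _ => Finset.sum_comm, Finset.sum_comm]
    simp only [quad, Fintype.sum_prod_type, Finset.sum_add_distrib, Finset.sum_sub_distrib,
      ← Finset.mul_sum, hSdef]
    rw [hsw, hsw]
  rw [show ∑ ci : Fin r × π, quad P C s p δ K (d.P n (unitVec π ci.1 ci.2))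
    = ∑ ci : Fin r × π, quad P C s p δ K (k ci.1 ci.2) from rfl, htot]
  have b1 := Finset.sum_le_sum fun c (_ : c ∈ Finset.univ) => a1 c
  have b2 := Finset.sum_le_sum fun c (_ : c ∈ Finset.univ) => a2 c
  have b3 := mul_le_mul_of_nonneg_left
    (Finset.sum_le_sum fun c (_ : c ∈ Finset.univ) => a3 c) hδ
  have b4 := Finset.sum_congr rfl fun c (_ : c ∈ Finset.univ) => hsplit c
  have b5 := mul_le_mul_of_nonneg_left hdef' hQ0.le
  have b6 := mul_le_mul_of_nonneg_left hR hK
  have b7 : P.pmin * C.ig (Config.U s) ≤ C.ig (p * Config.U s) := by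
    rw [← C.ig_smul]
    refine C.ig_mono (ContinuousMap.le_def.2 fun x => ?_)
    simp only [ContinuousMap.smul_apply, ContinuousMap.mul_apply, smul_eq_mul]
    refine mul_le_mul_of_nonneg_right (hpb x).1 ?_
    rcases hs.U_01 x with h | h <;> simp [h]
  have b8 := mul_le_mul_of_nonneg_left b7 (by positivity : (0 : ℝ) ≤ 12 * √r * P.Qmax)
  simp only [Finset.sum_add_distrib, Finset.sum_sub_distrib, ← Finset.mul_sum, Finset.sum_const,
    Finset.card_univ, Fintype.card_fin, nsmul_eq_mul] at b1 b2 b3 b4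
  have hεN : ε2 * N = ε := by rw [hε2]; field_simp
  rw [hN] at hεN
  have b9 := mul_nonneg hδ hε2p.le
  change K * ∑ c, ∑ j : π, C.ig (resid P C s (k c j) * resid P C s (k c j)) ≤ K * Rb at b6
  linarith

end Vale.Agent.P078.AllMasa.StepAux
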