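import Vale.Agent.P078.AllMasa.Stationary
import Vale.Agent.P078.Tracial.StepAux

/-! Algebraic facts used by the second order step. -/

namespace Vale.Agent.P078.AllMasa.StepAux

set_option linter.unusedSectionVars false

open Filter Topology ComplexOrder
open Vale.Agent.P078.Tracial

variable {M X : Type} [CStarAlgebra M] [PartialOrder M] [StarOrderedRing M]
variable [TopologicalSpace X] [CompactSpace X] [T2Space X] [TotallyDisconnectedSpace X]
variable {P : Prm M} {C : SCore M X}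

/-! The kernel of an element. -/

theorem K_add (z : M) (f g : C(X, ℝ)) : C.K z (f + g) = C.K z f + C.K z g := by
  simp only [SCore.K, C.r_add, mul_add, add_mul, C.Er_add]

theorem K_smul (z : M) (t : ℝ) (f : C(X, ℝ)) : C.K z (t • f) = t • C.K z f := by
  simp only [SCore.K, C.r_smul, mul_smul_comm, smul_mul_assoc, C.Er_smul]

/-- The kernel as a linear map. -/
noncomputable def Klin (C : SCore M X) (z : M) : C(X, ℝ) →ₗ[ℝ] C(X, ℝ) where
  toFun := C.K z
  map_add' := K_add z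
  map_smul' := fun t f => K_smul z t f

theorem Klin_apply (z : M) (f : C(X, ℝ)) : Klin C z f = C.K z f := rfl

/-- A family as a linear map. -/
noncomputable def Flin (F : Fam X) : C(X, ℝ) →ₗ[ℝ] C(X, ℝ) where
  toFun := F.K
  map_add' := F.K_add
  map_smul' := F.K_smul

theorem Flin_apply (F : Fam X) (f : C(X, ℝ)) : Flin F f = F.K f := rfl

theorem K_nonneg (z : M) {f : C(X, ℝ)} (hf : 0 ≤ f) : 0 ≤ C.K z f :=
  C.Er_nonneg (star_right_conjugate_nonneg (C.r_nonneg hf) z)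

theorem abs_K_le {z : M} {A : ℝ} (hz : ‖z‖ ≤ A) (f : C(X, ℝ)) (x : X) :
    |C.K z f x| ≤ A ^ 2 * ‖f‖ := by
  have h1 : ‖C.K z f‖ ≤ ‖z * C.r f * star z‖ :=
    C.norm_Er_le ((C.r_isSelfAdjoint f).conjugate z)
  refine (Tracial.abs_apply_le h1 x).trans ?_
  have hA : 0 ≤ A := (norm_nonneg z).trans hz
  calc ‖z * C.r f * star z‖ ≤ ‖z‖ * ‖C.r f‖ * ‖star z‖ :=
        (norm_mul_le _ _).trans (mul_le_mul_of_nonneg_right (norm_mul_le _ _) (norm_nonneg _))
    _ ≤ A * ‖f‖ * A := by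
        rw [norm_star]
        gcongr
        exact C.norm_r_le f
    _ = A ^ 2 * ‖f‖ := by ring

theorem norm_le_of_le_algebraMap {G : M} {Λ : ℝ} (hΛ : 0 ≤ Λ) (h0 : 0 ≤ G)
    (h1 : G ≤ algebraMap ℝ M Λ) : ‖G‖ ≤ Λ :=
  (CStarAlgebra.norm_le_iff_le_algebraMap G hΛ h0).2 h1

theorem Er_mem {G : M} {Λ : ℝ} (h0 : 0 ≤ G) (h1 : G ≤ algebraMap ℝ M Λ) (x : X) :
    0 ≤ C.Er G x ∧ C.Er G x ≤ Λ := by
  refine ⟨ContinuousMap.le_def.1 (C.Er_nonneg h0) x, ?_⟩
  have h := ContinuousMap.le_def.1 (C.Er_mono h1) x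
  rwa [C.Er_algebraMap] at h

theorem norm_off_le {G : M} {Λ : ℝ} (hΛ : 0 ≤ Λ) (h0 : 0 ≤ G) (h1 : G ≤ algebraMap ℝ M Λ) :
    ‖C.off G‖ ≤ 2 * Λ := by
  have hG := norm_le_of_le_algebraMap hΛ h0 h1
  refine (norm_sub_le _ _).trans ?_
  have := (C.norm_r_le (C.Er G)).trans (C.norm_Er_le (IsSelfAdjoint.of_nonneg h0))
  linarith

/-- The diagonal of the resolvent splits off. -/
theorem K_split {G : M} (hG : IsSelfAdjoint G) (f : C(X, ℝ)) :
    C.K G f = C.Er G * C.Er G * f + C.K (C.off G) f := by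
  have hz : star (C.off G) = C.off G := (C.off_isSelfAdjoint hG).star_eq
  set z := C.off G with hzdef
  set γ := C.Er G with hγ
  have hG' : G = C.r γ + z := by rw [hzdef, SCore.off, add_sub_cancel]
  have e : G * C.r f * star G = C.r (γ * f * γ) + C.r (γ * f) * z + z * C.r (f * γ)
      + z * C.r f * z := by
    rw [hG.star_eq]
    simp only [hG', add_mul, mul_add, C.r_mul, mul_assoc]
    abel
  rw [SCore.K, e, C.Er_add, C.Er_add, C.Er_add, C.Er_r, C.Er_r_mul, C.Er_mul_r, hzdef,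
    C.Er_off, mul_zero, zero_mul, add_zero, add_zero, SCore.K, hz, mul_right_comm γ f]

/-- A positive map sends a partition of unity to a family with small squares. -/
theorem sum_sq_cell_le (Q : C(X, ℝ) →ₗ[ℝ] C(X, ℝ)) (hQ : ∀ f, 0 ≤ f → 0 ≤ Q f)
    (π : DiscreteQuotient X) (x : X) :
    ∑ j : π, Q (cellFn π j) x * Q (cellFn π j) x ≤ Q 1 x * Q 1 x := by
  have h0 : ∀ j : π, 0 ≤ Q (cellFn π j) x := fun j =>
    ContinuousMap.le_def.1 (hQ _ (cellFn_nonneg π j)) x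
  have h1 : Q 1 x = ∑ j : π, Q (cellFn π j) x := by
    rw [← sum_cellFn π, map_sum, ContinuousMap.coe_sum, Finset.sum_apply]
  rw [h1, ← sq]
  simp only [← sq]
  exact Finset.sum_sq_le_sq_sum_of_nonneg fun j _ => h0 j

/-- A positive map is monotone. -/
theorem apply_mono (Q : C(X, ℝ) →ₗ[ℝ] C(X, ℝ)) (hQ : ∀ f, 0 ≤ f → 0 ≤ Q f) {f g : C(X, ℝ)}
    (h : f ≤ g) (x : X) : Q f x ≤ Q g x := by
  have h1 := ContinuousMap.le_def.1 (hQ _ (sub_nonneg.2 h)) x
  rw [map_sub] at h1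
  simpa using h1

/-! The linear functionals of one colour. -/

theorem R_nonneg {s : Col M X} (hs : s.Ok P C) : 0 ≤ P.R C s := hs.mat_pos.ringInverse.nonneg

theorem R_isSelfAdjoint {s : Col M X} (hs : s.Ok P C) : IsSelfAdjoint (P.R C s) :=
  IsSelfAdjoint.of_nonneg (R_nonneg hs)

theorem R_le {s : Col M X} (hg : P.Good C s) : P.R C s ≤ algebraMap ℝ M P.eP⁻¹ := by
  have hu : IsStrictlyPositive (algebraMap ℝ M P.eP) := by
    exact IsStrictlyPositive.iff_of_unital.2 ⟨algebraMap_nonneg M P.eP_pos.le,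
      (Units.mk0 P.eP P.eP_pos.ne').isUnit.map (algebraMap ℝ M)⟩
  refine (CStarAlgebra.ringInverse_le_ringInverse hg.mat_ge hu).trans (le_of_eq ?_)
  refine left_inv_eq_right_inv (Ring.inverse_mul_cancel _ hu.isUnit) ?_
  rw [← map_mul, mul_inv_cancel₀ P.eP_pos.ne', map_one]

theorem VG_add (s : Col M X) (x y : M) : P.VG C s (x + y) = P.VG C s x + P.VG C s y := by
  simp only [Prm.VG, mul_add, add_mul, C.tr_add]

theorem VG_smul (s : Col M X) (t : ℝ) (x : M) : P.VG C s (t • x) = t * P.VG C s x := by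
  simp only [Prm.VG, mul_smul_comm, smul_mul_assoc, C.tr_smul]
  ring

theorem VG_nonneg {s : Col M X} (hs : s.Ok P C) {x : M} (hx : 0 ≤ x) : 0 ≤ P.VG C s x := by
  refine mul_nonneg (sq_nonneg _) (C.tr_nonneg ?_)
  have := star_left_conjugate_nonneg hx (P.R C s)
  rwa [(R_isSelfAdjoint hs).star_eq] at this

theorem VW_smul (s : Col M X) (t : ℝ) (f : C(X, ℝ)) : P.VW C s (t • f) = t * P.VW C s f := by
  simp only [Prm.VW, C.r_smul, VG_smul, C.ig_smul]
  ring

theorem VG_r_le_VW {s : Col M X} {f : C(X, ℝ)} (hf : 0 ≤ f) :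
    P.VG C s (C.r f) ≤ P.VW C s f := by
  have := mul_nonneg P.l_pos.le (C.ig_nonneg hf)
  unfold Prm.VW
  linarith

/-- A squared multiplier is paid by the slope in the weight. -/
theorem VG_sandwich_le {s : Col M X} (hs : s.Ok P C) (hg : P.Good C s) (m : C(X, ℝ)) :
    P.VG C s (C.r m * P.R C s * C.r m) ≤ P.eP⁻¹ * P.VW C s (m * m) := by
  have h1 : C.r m * P.R C s * C.r m ≤ P.eP⁻¹ • C.r (m * m) := by
    have h := star_left_conjugate_le_conjugate (R_le hg) (C.r m)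
    rw [C.star_r, Algebra.algebraMap_eq_smul_one, mul_smul_comm, smul_mul_assoc, mul_one,
      ← C.r_mul] at h
    exact h
  have h2 : 0 ≤ P.VG C s (P.eP⁻¹ • C.r (m * m) - C.r m * P.R C s * C.r m) :=
    VG_nonneg hs (sub_nonneg.2 h1)
  have h3 : P.VG C s (P.eP⁻¹ • C.r (m * m) - C.r m * P.R C s * C.r m)
      = P.eP⁻¹ * P.VG C s (C.r (m * m)) - P.VG C s (C.r m * P.R C s * C.r m) := by
    rw [sub_eq_add_neg, ← neg_one_smul ℝ (C.r m * P.R C s * C.r m), VG_add, VG_smul, VG_smul]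
    ring
  have h4 := mul_le_mul_of_nonneg_left
    (VG_r_le_VW (P := P) (C := C) (s := s) (ContinuousMap.le_def.2 fun x => mul_self_nonneg (m x) :
      (0 : C(X, ℝ)) ≤ m * m)) (inv_nonneg.2 P.eP_pos.le)
  linarith

/-- The price controls the slope in the weight on bounded functions. -/
theorem VW_price {s : Col M X} {p : C(X, ℝ)} {ε : ℝ}
    (hp : ∀ f : C(X, ℝ), (∀ x, 0 ≤ f x ∧ f x ≤ 1) → f * s.act = f →
      |P.VW C s f - C.ig (p * P.Dc s * f)| ≤ ε)
    {f : C(X, ℝ)} {A : ℝ} (hA : 0 < A) (hf : ∀ x, 0 ≤ f x ∧ f x ≤ A) (hfa : f * s.act = f) :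
    |P.VW C s f - C.ig (p * P.Dc s * f)| ≤ ε * A := by
  have h := hp (A⁻¹ • f) (fun x => by
    simp only [ContinuousMap.smul_apply, smul_eq_mul]
    exact ⟨mul_nonneg (inv_nonneg.2 hA.le) (hf x).1,
      (inv_mul_le_one₀ hA).2 (hf x).2⟩) (by rw [smul_mul_assoc, hfa])
  rw [VW_smul, mul_smul_comm, C.ig_smul, ← mul_sub, abs_mul, abs_of_pos (inv_pos.2 hA),
    inv_mul_le_iff₀ hA] at h
  linarith

/-- Equality of products with an indicator. -/
theorem mul_ind_eq {f a : C(X, ℝ)} (ha : ∀ x, a x = 0 ∨ a x = 1) (h : ∀ x, a x = 0 → f x = 0) :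
    f * a = f := by
  ext x
  rcases ha x with h' | h' <;> simp [h', h x]

end Vale.Agent.P078.AllMasa.StepAux
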