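import Vale.Agent.P078.AllMasa.Step.Alg
import Vale.Agent.P078.AllMasa.StepColour

/-! The two moves along opposite directions cancel the linear part and leave a quadratic form. -/

namespace Vale.Agent.P078.AllMasa.StepAux

set_option linter.unusedSectionVars false

open Filter Topology ComplexOrder
open Vale.Agent.P078.Tracial

variable {M X : Type} [CStarAlgebra M] [PartialOrder M] [StarOrderedRing M]
variable [TopologicalSpace X] [CompactSpace X] [T2Space X] [TotallyDisconnectedSpace X]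
variable {P : Prm M} {C : SCore M X}
variable {r : ℕ}

/-- The change of the total budget. -/
noncomputable def resid (P : Prm M) (C : SCore M X) (s : Config M X r) :
    (Fin r → C(X, ℝ)) →ₗ[ℝ] C(X, ℝ) where
  toFun v := ∑ c, (s c).act * (P.Dc (s c) * v c - C.K ((s c).G : M) (v c))
  map_add' u v := by
    rw [← Finset.sum_add_distrib]
    exact Finset.sum_congr rfl fun c _ => by rw [Pi.add_apply, K_add]; ring
  map_smul' t v := by
    simp only [Pi.smul_apply, K_smul, mul_smul_comm, ← smul_sub, ← Finset.smul_sum,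
      RingHom.id_apply]

theorem resid_apply (s : Config M X r) (v : Fin r → C(X, ℝ)) :
    resid P C s v = ∑ c, (s c).act * (P.Dc (s c) * v c - C.K ((s c).G : M) (v c)) := rfl

/-- The quadratic form controlling the second order change. -/
noncomputable def quad (P : Prm M) (C : SCore M X) (s : Config M X r) (p : C(X, ℝ)) (δ K : ℝ)
    (v : Fin r → C(X, ℝ)) : ℝ :=
  (∑ c, (P.VG C (s c) (C.r (v c) * ((s c).G : M) * C.r (v c))
      - (1 - δ) * C.ig (p * P.Qc (s c) * (s c).act * (v c * v c))))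
    + K * C.ig (resid P C s v * resid P C s v)

theorem ig_sq_parallelogram (m f g : C(X, ℝ)) :
    C.ig (m * ((f + g) * (f + g))) + C.ig (m * ((f - g) * (f - g)))
      = 2 * C.ig (m * (f * f)) + 2 * C.ig (m * (g * g)) := by
  rw [← C.ig_add, ← C.ig_smul, ← C.ig_smul, ← C.ig_add]
  congr 1
  ext x
  simp
  ring

theorem quad_parallelogram (s : Config M X r) (p : C(X, ℝ)) (δ K : ℝ)
    (v w : Fin r → C(X, ℝ)) :
    quad P C s p δ K (v + w) + quad P C s p δ K (v - w)
      = 2 * quad P C s p δ K v + 2 * quad P C s p δ K w := by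
  have h1 : ∀ c, P.VG C (s c) (C.r (v c + w c) * ((s c).G : M) * C.r (v c + w c))
      + P.VG C (s c) (C.r (v c - w c) * ((s c).G : M) * C.r (v c - w c))
      = 2 * P.VG C (s c) (C.r (v c) * ((s c).G : M) * C.r (v c))
        + 2 * P.VG C (s c) (C.r (w c) * ((s c).G : M) * C.r (w c)) := fun c => by
    rw [← VG_add, ← VG_smul, ← VG_smul, ← VG_add]
    congr 1
    simp only [C.r_add, C.r_sub, add_mul, mul_add, sub_mul, mul_sub, two_smul]
    abel
  have h2 : ∀ c, (P.VG C (s c) (C.r (v c + w c) * ((s c).G : M) * C.r (v c + w c))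
        - (1 - δ) * C.ig (p * P.Qc (s c) * (s c).act * ((v c + w c) * (v c + w c))))
      + (P.VG C (s c) (C.r (v c - w c) * ((s c).G : M) * C.r (v c - w c))
        - (1 - δ) * C.ig (p * P.Qc (s c) * (s c).act * ((v c - w c) * (v c - w c))))
      = 2 * (P.VG C (s c) (C.r (v c) * ((s c).G : M) * C.r (v c))
          - (1 - δ) * C.ig (p * P.Qc (s c) * (s c).act * (v c * v c)))
        + 2 * (P.VG C (s c) (C.r (w c) * ((s c).G : M) * C.r (w c))
          - (1 - δ) * C.ig (p * P.Qc (s c) * (s c).act * (w c * w c))) := fun c => by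
    linear_combination h1 c
      - (1 - δ) * ig_sq_parallelogram (C := C) (p * P.Qc (s c) * (s c).act) (v c) (w c)
  have h3 := ig_sq_parallelogram (C := C) 1 (resid P C s v) (resid P C s w)
  rw [← map_add, ← map_sub, one_mul, one_mul, one_mul, one_mul] at h3
  have h5 := Finset.sum_congr rfl fun c (_ : c ∈ Finset.univ) => h2 c
  simp only [Finset.sum_add_distrib, ← Finset.mul_sum] at h5
  simp only [quad, Pi.add_apply, Pi.sub_apply]
  linear_combination h5 + K * h3

theorem second_neg (s : Col M X) (k h : C(X, ℝ)) :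
    P.second C s (-k) (-h) = P.second C s k h := by
  have e : ∀ (a : M) (b : M), (-a) * b * (-a) = a * b * a := fun a b => by
    simp [neg_mul, mul_neg]
  have e2 : (-k - -h * P.iD s) * (-k - -h * P.iD s) = (k - h * P.iD s) * (k - h * P.iD s) := by
    ring
  have e3 : s.act * -h * P.iD s = -(s.act * h * P.iD s) := by ring
  simp only [Prm.second, e2, e3, C.r_neg, e]

theorem lin_neg (s : Col M X) (k h : C(X, ℝ)) : P.lin C s (-k) (-h) = -P.lin C s k h := by
  have e1 : s.act * -h * P.iD s = (-1 : ℝ) • (s.act * h * P.iD s) := by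
    rw [neg_one_smul]; ring
  have e2 : s.act * (-k - -h * P.iD s) = (-1 : ℝ) • (s.act * (k - h * P.iD s)) := by
    rw [neg_one_smul]; ring
  have e3 : -k = (-1 : ℝ) • k := (neg_one_smul ℝ k).symm
  rw [Prm.lin, Prm.lin, e1, e2]
  simp only [C.r_smul, VG_smul, C.ig_smul, C.r_neg, mul_neg, neg_mul, C.tr_neg]
  ring

/-- The error per colour of the moves of size `B`. -/
noncomputable def moveErr (P : Prm M) (B : ℝ) : ℝ :=
  P.Qmax / P.Dmin * (B + B / P.Dmin + 1) ^ 2 + P.eP⁻¹ * (B / P.Dmin + 1) ^ 2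

/-- The weight of the residual. -/
noncomputable def resWeight (P : Prm M) (r : ℕ) (δ : ℝ) : ℝ :=
  r * (P.pmax * P.Qmax / (δ * P.Dmin ^ 2) + P.pmax * P.Dmax / (P.eP * P.Dmin ^ 2))

theorem Qmax_pos (P : Prm M) : 0 < P.Qmax := by
  unfold Prm.Qmax Prm.ξm
  have := P.t_pos
  positivity

theorem pmax_pos (P : Prm M) : 0 < P.pmax := by
  unfold Prm.pmax
  have := P.Dmin_pos
  positivity

/-- The second order change of one colour, up to the price error. -/
theorem second_le {s : Col M X} (hs : s.Ok P C) (hg : P.Good C s) {p : C(X, ℝ)}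
    (hpb : ∀ x, 0 ≤ p x ∧ p x ≤ P.pmax) {ε1 : ℝ}
    (hp : ∀ f : C(X, ℝ), (∀ x, 0 ≤ f x ∧ f x ≤ 1) → f * s.act = f →
      |P.VW C s f - C.ig (p * P.Dc s * f)| ≤ ε1)
    {δ : ℝ} (hδ : 0 < δ) {B : ℝ} (hB : 0 ≤ B) {k h res : C(X, ℝ)}
    (hk : ‖k‖ ≤ B) (hh : ‖h‖ ≤ B) (hres : ∀ x, |h x| ≤ |res x|) :
    P.second C s k h ≤ P.VG C s (C.r k * (s.G : M) * C.r k)
      - (1 - δ) * C.ig (p * P.Qc s * s.act * (k * k))
      + (P.pmax * P.Qmax / (δ * P.Dmin ^ 2) + P.pmax * P.Dmax / (P.eP * P.Dmin ^ 2))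
          * C.ig (res * res)
      + ε1 * moveErr P B := by
  have hD0 := P.Dmin_pos
  have hQ0 := Qmax_pos P
  have hp0 := pmax_pos P
  have hi : ∀ x, 0 < P.iD s x ∧ P.iD s x ≤ P.Dmin⁻¹ ∧ P.Dc s x * P.iD s x = 1 := fun x => by
    have hD := (Prm.Dc_bounds hs x).1
    exact ⟨inv_pos.2 (hD0.trans_le hD), inv_anti₀ hD0 hD,
      mul_inv_cancel₀ (hD0.trans_le hD).ne'⟩
  set m : C(X, ℝ) := s.act * h * P.iD s with hm
  set f : C(X, ℝ) := s.act * P.iD s * P.Qc s * ((k - h * P.iD s) * (k - h * P.iD s)) with hf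
  have hQ : ∀ x, s.act x = 1 → 0 ≤ P.Qc s x ∧ P.Qc s x ≤ P.Qmax := fun x hx =>
    Prm.Qc_le hs hg hx
  have hu : ∀ x, |h x * P.iD s x| ≤ |res x| / P.Dmin ∧ |h x * P.iD s x| ≤ B / P.Dmin := fun x => by
    rw [abs_mul, abs_of_pos (hi x).1, div_eq_mul_inv, div_eq_mul_inv]
    exact ⟨mul_le_mul (hres x) (hi x).2.1 (hi x).1.le (abs_nonneg _),
      mul_le_mul (Tracial.abs_apply_le hh x) (hi x).2.1 (hi x).1.le hB⟩
  set Af := P.Qmax / P.Dmin * (B + B / P.Dmin + 1) ^ 2 with hAf
  set Am := (B / P.Dmin + 1) ^ 2 with hAm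
  have hAf0 : 0 < Af := by positivity
  have hAm0 : 0 < Am := by positivity
  have hfb : ∀ x, 0 ≤ f x ∧ f x ≤ Af := fun x => by
    simp only [hf, ContinuousMap.mul_apply, ContinuousMap.sub_apply]
    rcases hs.act_01 x with ha | ha <;> rw [ha]
    · simpa using hAf0.le
    · have h1 := hQ x ha
      have h2 := hi x
      refine ⟨mul_nonneg (mul_nonneg (by linarith) h1.1) (mul_self_nonneg _), ?_⟩
      have h3 : |k x - h x * P.iD s x| ≤ B + B / P.Dmin + 1 := by
        refine (abs_sub _ _).trans ?_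
        linarith [Tracial.abs_apply_le hk x, (hu x).2]
      rw [one_mul, hAf, div_eq_inv_mul P.Qmax]
      refine mul_le_mul (mul_le_mul h2.2.1 h1.2 h1.1 (inv_nonneg.2 hD0.le)) ?_
        (mul_self_nonneg _) (mul_nonneg (inv_nonneg.2 hD0.le) hQ0.le)
      calc (k x - h x * P.iD s x) * (k x - h x * P.iD s x) = |k x - h x * P.iD s x| ^ 2 := by
            rw [sq_abs, sq]
        _ ≤ _ := pow_le_pow_left₀ (abs_nonneg _) h3 2
  have hfa : f * s.act = f := mul_ind_eq hs.act_01 fun x hx => by simp [hf, hx]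
  have hmb : ∀ x, 0 ≤ (m * m) x ∧ (m * m) x ≤ Am := fun x => by
    refine ⟨mul_self_nonneg _, ?_⟩
    simp only [hm, ContinuousMap.mul_apply]
    rcases hs.act_01 x with ha | ha <;> rw [ha]
    · simpa using hAm0.le
    · calc 1 * h x * P.iD s x * (1 * h x * P.iD s x) = |h x * P.iD s x| ^ 2 := by
            rw [sq_abs]; ring
        _ ≤ _ := pow_le_pow_left₀ (abs_nonneg _) (by linarith [(hu x).2]) 2
  have hma : m * m * s.act = m * m := mul_ind_eq hs.act_01 fun x hx => by simp [hm, hx]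
  have hTf := (abs_le.1 (VW_price hp hAf0 hfb hfa)).1
  have hTm := (abs_le.1 (VW_price hp hAm0 hmb hma)).2
  have hT3 := VG_sandwich_le hs hg m
  set a1 := P.pmax * P.Qmax / (δ * P.Dmin ^ 2) with ha1
  set a2 := P.pmax * P.Dmax / P.Dmin ^ 2 with ha2
  have hfI : (1 - δ) * C.ig (p * P.Qc s * s.act * (k * k)) - a1 * C.ig (res * res)
      ≤ C.ig (p * P.Dc s * f) := by
    rw [← C.ig_smul, ← C.ig_smul, ← C.ig_sub]
    refine C.ig_mono (ContinuousMap.le_def.2 fun x => ?_)
    simp only [hf, ContinuousMap.mul_apply, ContinuousMap.sub_apply, ContinuousMap.smul_apply,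
      smul_eq_mul]
    rcases hs.act_01 x with ha | ha <;> rw [ha]
    · have : 0 ≤ a1 * (res x * res x) := mul_nonneg (by positivity) (mul_self_nonneg _)
      simp
      linarith
    · set u := h x * P.iD s x with hu'
      have h0 := (hpb x)
      have h1 := hQ x ha
      have hyoung : (1 - δ) * (k x * k x) - δ⁻¹ * (u * u) ≤ (k x - u) * (k x - u) := by
        have h4 : 0 ≤ δ⁻¹ * ((δ * k x - u) * (δ * k x - u)) :=
          mul_nonneg (inv_nonneg.2 hδ.le) (mul_self_nonneg _)
        have h5 : δ⁻¹ * ((δ * k x - u) * (δ * k x - u))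
            = δ * (k x * k x) - 2 * (k x * u) + δ⁻¹ * (u * u) := by field_simp; ring
        have h6 : 0 ≤ u * u := mul_self_nonneg u
        linarith
      have hu2 : u * u ≤ (res x * res x) / P.Dmin ^ 2 := by
        have h := pow_le_pow_left₀ (abs_nonneg _) (hu x).1 2
        rw [sq_abs, div_pow, sq_abs] at h
        rw [← sq, ← sq]
        exact h
      have hpQ : 0 ≤ p x * P.Qc s x := mul_nonneg h0.1 h1.1
      have hpQ' : p x * P.Qc s x ≤ P.pmax * P.Qmax := mul_le_mul h0.2 h1.2 h1.1 hp0.le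
      have h7 : p x * P.Qc s x * (δ⁻¹ * (u * u)) ≤ a1 * (res x * res x) := by
        refine (mul_le_mul hpQ' (mul_le_mul_of_nonneg_left hu2 (inv_nonneg.2 hδ.le))
          (mul_nonneg (inv_nonneg.2 hδ.le) (mul_self_nonneg u)) (by positivity)).trans
          (le_of_eq ?_)
        rw [ha1]; field_simp
      have h8 := mul_le_mul_of_nonneg_left hyoung hpQ
      have e : p x * P.Dc s x * (1 * P.iD s x * P.Qc s x * ((k x - u) * (k x - u)))
          = p x * P.Qc s x * ((k x - u) * (k x - u)) := by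
        linear_combination p x * P.Qc s x * ((k x - u) * (k x - u)) * (hi x).2.2
      rw [e]
      linarith
  have hmI : C.ig (p * P.Dc s * (m * m)) ≤ a2 * C.ig (res * res) := by
    rw [← C.ig_smul]
    refine C.ig_mono (ContinuousMap.le_def.2 fun x => ?_)
    simp only [hm, ContinuousMap.mul_apply, ContinuousMap.smul_apply, smul_eq_mul]
    have hD := Prm.Dc_bounds hs x
    have hr2 : 0 ≤ a2 * (res x * res x) :=
      mul_nonneg (div_nonneg (mul_nonneg hp0.le P.Dmax_pos.le) (sq_nonneg _)) (mul_self_nonneg _)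
    rcases hs.act_01 x with ha | ha <;> rw [ha]
    · simpa using hr2
    · have hsq := pow_le_pow_left₀ (abs_nonneg _) (hu x).1 2
      rw [sq_abs, div_pow, sq_abs] at hsq
      calc p x * P.Dc s x * (1 * h x * P.iD s x * (1 * h x * P.iD s x))
          = p x * P.Dc s x * (h x * P.iD s x) ^ 2 := by ring
        _ ≤ P.pmax * P.Dmax * (res x ^ 2 / P.Dmin ^ 2) :=
            mul_le_mul (mul_le_mul (hpb x).2 hD.2 (P.Dc_pos s x).le hp0.le) hsq (sq_nonneg _)
              (mul_nonneg hp0.le P.Dmax_pos.le)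
        _ = a2 * (res x * res x) := by rw [ha2]; field_simp
  have he : 0 ≤ P.eP⁻¹ := inv_nonneg.2 P.eP_pos.le
  have h9 : P.eP⁻¹ * P.VW C s (m * m) ≤ P.eP⁻¹ * (a2 * C.ig (res * res) + ε1 * Am) :=
    mul_le_mul_of_nonneg_left (by linarith) he
  have e1 : P.pmax * P.Dmax / (P.eP * P.Dmin ^ 2) = P.eP⁻¹ * a2 := by rw [ha2]; field_simp
  have e2 : ε1 * moveErr P B = ε1 * Af + P.eP⁻¹ * (ε1 * Am) := by
    rw [moveErr, ← hAf, ← hAm]; ring
  rw [e1, e2]
  unfold Prm.second
  rw [← hm, ← hf]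
  linarith

/-- At an approximate minimiser the quadratic form is almost nonnegative. -/
theorem quad_ge {s : Config M X r} (hs : StateOk P C s) (hg : ∀ c, P.Good C (s c))
    {ζ : ℝ} (hmin : P.IsMin C s ζ) {p : C(X, ℝ)} (hpb : ∀ x, 0 ≤ p x ∧ p x ≤ P.pmax) {ε1 : ℝ}
    (hp : ∀ c, ∀ f : C(X, ℝ), (∀ x, 0 ≤ f x ∧ f x ≤ 1) → f * (s c).act = f →
      |P.VW C (s c) f - C.ig (p * P.Dc (s c) * f)| ≤ ε1)
    {δ : ℝ} (hδ : 0 < δ) {B Cst η0 : ℝ} (hB : 0 ≤ B)
    (hstep : ∀ s : Col M X, s.Ok P C → P.Good C s →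
      ∀ k h : C(X, ℝ), ‖k‖ ≤ B → ‖h‖ ≤ B → k * s.act = k →
      ∀ η : ℝ, 0 < η → η ≤ η0 →
        ∃ (W' : C(X, ℝ)) (G' : Mˣ),
          (⟨s.act, s.ass, s.b + η • P.dir C s k h, W', G', s.Z⟩ : Col M X).Ok P C ∧
          P.pot C ⟨s.act, s.ass, s.b + η • P.dir C s k h, W', G', s.Z⟩
            ≤ P.pot C s + η * P.lin C s k h + η ^ 2 * P.second C s k h + η ^ 3 * Cst)
    {η : ℝ} (hη : 0 < η) (hη1 : η ≤ η0) (v : Fin r → C(X, ℝ))
    (hk : ∀ c, ‖v c‖ ≤ B) (hka : ∀ c, v c * (s c).act = v c) (hres : ‖resid P C s v‖ ≤ B) :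
    0 ≤ ζ + η ^ 2 * (quad P C s p δ (resWeight P r δ) v + r * (ε1 * moveErr P B))
      + η ^ 3 * (r * Cst) := by
  classical
  set atot : C(X, ℝ) := ∑ c, (s c).act with hatot
  set ia : C(X, ℝ) := ⟨fun x => (max (atot x) 1)⁻¹,
    Continuous.inv₀ (by fun_prop) fun x => (lt_max_of_lt_right one_pos).ne'⟩ with hia
  set res := resid P C s v with hresdef
  set h0 : C(X, ℝ) := res * ia with hh0
  have hia1 : ∀ x, 0 ≤ ia x ∧ ia x ≤ 1 := fun x =>
    ⟨inv_nonneg.2 (zero_le_one.trans (le_max_right _ _)),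
      inv_le_one_of_one_le₀ (le_max_right _ _)⟩
  have hh0r : ∀ x, |h0 x| ≤ |res x| := fun x => by
    rw [hh0, ContinuousMap.mul_apply, abs_mul, abs_of_nonneg (hia1 x).1]
    exact mul_le_of_le_one_right (abs_nonneg _) (hia1 x).2
  have hh0b : ‖h0‖ ≤ B :=
    Tracial.norm_le_of_abs hB fun x => (hh0r x).trans (Tracial.abs_apply_le hres x)
  have hDsum : ∑ c, P.dir C (s c) (v c) h0 = 0 := by
    ext x
    have hr1 : ∑ c, (s c).act x * (P.Dc (s c) x * v c x - C.K ((s c).G : M) (v c) x) = res x := by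
      simp only [hresdef, resid_apply, ContinuousMap.coe_sum, Finset.sum_apply,
        ContinuousMap.sub_apply, ContinuousMap.mul_apply]
    simp only [ContinuousMap.coe_sum, Finset.sum_apply, Prm.dir, ContinuousMap.sub_apply,
      ContinuousMap.mul_apply, ContinuousMap.zero_apply, mul_sub]
    rw [Finset.sum_sub_distrib, ← Finset.sum_mul, ← Finset.sum_apply, ← ContinuousMap.coe_sum,
      ← hatot]
    simp only [← mul_sub]
    rw [hr1]
    by_cases hex : ∃ c, (s c).act x = 1
    · obtain ⟨c0, hc0⟩ := hex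
      have h1 : 1 ≤ atot x := by
        simp only [hatot, ContinuousMap.coe_sum, Finset.sum_apply]
        calc (1 : ℝ) = (s c0).act x := hc0.symm
          _ ≤ _ := Finset.single_le_sum (f := fun c => (s c).act x)
              (fun c _ => by rcases (hs.col c).act_01 x with h | h <;> simp [h])
              (Finset.mem_univ c0)
      simp only [hh0, hia, ContinuousMap.mul_apply, ContinuousMap.coe_mk, max_eq_left h1]
      field_simp
      ring
    · have hall : ∀ c, (s c).act x = 0 := fun c =>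
        ((hs.col c).act_01 x).resolve_right fun h => hex ⟨c, h⟩
      have hr0 : res x = 0 := by
        rw [← hr1]
        exact Finset.sum_eq_zero fun c _ => by simp [hall c]
      simp [hh0, hr0]
  have key : ∀ (k : Fin r → C(X, ℝ)) (h : C(X, ℝ)), (∀ c, ‖k c‖ ≤ B) → ‖h‖ ≤ B →
      (∀ c, k c * (s c).act = k c) → ∑ c, P.dir C (s c) (k c) h = 0 →
      0 ≤ ζ + η * ∑ c, P.lin C (s c) (k c) h + η ^ 2 * ∑ c, P.second C (s c) (k c) h
        + η ^ 3 * (r * Cst) := by
    intro k h hkb hhb hkk hsum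
    choose W' G' hok hpot using fun c =>
      hstep (s c) (hs.col c) (hg c) (k c) h (hkb c) hhb (hkk c) η hη hη1
    set t : Config M X r := fun c =>
      ⟨(s c).act, (s c).ass, (s c).b + η • P.dir C (s c) (k c) h, W' c, G' c, (s c).Z⟩ with ht
    have htU : Config.U t = Config.U s := rfl
    have htok : StateOk P C t := ⟨hok, fun x => by rw [htU]; exact hs.U_01 x,
      fun c x => by rw [htU]; exact hs.act_le c x, by
        rw [htU]
        show ∑ c, ((s c).b + η • P.dir C (s c) (k c) h) = P.S • Config.U s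
        rw [Finset.sum_add_distrib, ← Finset.smul_sum, hsum, smul_zero, add_zero, hs.b_sum],
      fun c x hx => by
        have hx' : (s c).act x = 0 := hx
        simp [ht, Prm.dir, hx', hs.b_drop c x hx']⟩
    have h1 := hmin t htok
    have h2 : P.Psi C t ≤ ∑ c, (P.pot C (s c) + η * P.lin C (s c) (k c) h
        + η ^ 2 * P.second C (s c) (k c) h + η ^ 3 * Cst) :=
      Finset.sum_le_sum fun c _ => hpot c
    rw [Finset.sum_add_distrib, Finset.sum_add_distrib, Finset.sum_add_distrib, ← Finset.mul_sum,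
      ← Finset.mul_sum, Finset.sum_const, Finset.card_univ, Fintype.card_fin, nsmul_eq_mul] at h2
    change P.Psi C t ≤ P.Psi C s + _ + _ + _ at h2
    linarith
  have hplus := key v h0 hk hh0b hka hDsum
  have hminus := key (fun c => -v c) (-h0) (fun c => (norm_neg (v c)).trans_le (hk c))
    ((norm_neg h0).trans_le hh0b) (fun c => by rw [neg_mul, hka c]) (by
      rw [← neg_zero, ← hDsum, ← Finset.sum_neg_distrib]
      refine Finset.sum_congr rfl fun c _ => ?_
      have e : C.K ((s c).G : M) (-v c) = -C.K ((s c).G : M) (v c) :=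
        (Klin C ((s c).G : M)).map_neg (v c)
      simp only [Prm.dir, e]
      ring)
  simp only [lin_neg, second_neg, Finset.sum_neg_distrib] at hminus
  have hsec : ∑ c, P.second C (s c) (v c) h0
      ≤ quad P C s p δ (resWeight P r δ) v + r * (ε1 * moveErr P B) := by
    refine (Finset.sum_le_sum fun c _ => second_le (hs.col c) (hg c) hpb (hp c) hδ hB
      (hk c) hh0b hh0r).trans (le_of_eq ?_)
    simp only [quad, resWeight, Finset.sum_add_distrib, Finset.sum_const, Finset.card_univ,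
      Fintype.card_fin, nsmul_eq_mul, ← hresdef]
    ring
  have h3 := mul_le_mul_of_nonneg_left hsec (sq_nonneg η)
  linarith

end Vale.Agent.P078.AllMasa.StepAux
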