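import Vale.Agent.P078.AllMasa.Step.Move
import Vale.Agent.P078.AllMasa.Cov
import Vale.Agent.P078.AllMasa.Family

/-! The change of the budget along the smoothed noise is small in mean square. -/

namespace Vale.Agent.P078.AllMasa.StepAux

set_option linter.unusedSectionVars false

open Filter Topology ComplexOrder
open Vale.Agent.P078.Tracial

variable {M X : Type} [CStarAlgebra M] [PartialOrder M] [StarOrderedRing M]
variable [TopologicalSpace X] [CompactSpace X] [T2Space X] [TotallyDisconnectedSpace X]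
variable {P : Prm M} {C : SCore M X}
variable {r : ℕ}

/-- The smoothed noise lives on the active points. -/
theorem P_supp {d : LData X r} (hd : d.Ok) (n : ℕ) (u : Fin r → C(X, ℝ)) (c : Fin r) :
    d.P n u c * d.act c = d.P n u c := by
  have hsq : d.act c * d.act c = d.act c := by
    ext x
    rcases hd.act_01 c x with h | h <;> simp [h]
  have hL : ∀ f, d.Lc c f * d.act c = d.Lc c f := fun f => by
    show d.act c * _ * d.act c = d.act c * _
    rw [mul_right_comm, hsq]
  have hstep : ∀ v : Fin r → C(X, ℝ), v c * d.act c = v c → d.step v c * d.act c = d.step v c :=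
    fun v hv => by
      simp only [LData.step, LinearMap.sub_apply, LinearMap.smul_apply, LinearMap.id_coe, id_eq,
        LinearMap.pi_apply, LinearMap.comp_apply, Pi.sub_apply, Pi.smul_apply, sub_mul,
        smul_mul_assoc, hv, hL]
  induction n with
  | zero =>
    show d.act c * u c * d.act c = d.act c * u c
    rw [mul_right_comm, hsq]
  | succ n ih =>
    have e : d.P (n + 1) u = d.step (d.P n u) := by
      simp only [LData.P, pow_succ', LinearMap.comp_apply, Module.End.mul_apply]
    rw [e]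
    exact hstep _ ih

/-- The difference of two families. -/
noncomputable def famDiff (F' F : Fam X) : Fam X :=
  ⟨F'.num + F.num, Fin.append F'.g (fun k => -F.g k), Fin.append F'.p F.p⟩

theorem famDiff_K (F' F : Fam X) (f : C(X, ℝ)) : (famDiff F' F).K f = F'.K f - F.K f := by
  show ∑ k : Fin (F'.num + F.num),
    Fin.append F'.g (fun k => -F.g k) k * (Fin.append F'.p F.p k).T f = F'.K f - F.K f
  simp only [Fam.K, Fin.sum_univ_add, Fin.append_left, Fin.append_right, neg_mul,
    Finset.sum_neg_distrib, sub_eq_add_neg]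

theorem famDiff_fromNrm {F' F : Fam X} (h' : F'.FromNrm C) (h : F.FromNrm C) :
    (famDiff F' F).FromNrm C :=
  Fin.addCases (fun i => by simpa [famDiff] using h' i) (fun i => by simpa [famDiff] using h i)

theorem sq_sub_sum_le (L : ℝ) (a b c e : Fin r → ℝ) :
    (L - ∑ i, (a i + b i + c i + e i)) * (L - ∑ i, (a i + b i + c i + e i))
      ≤ 2 * (L * L) + 8 * r * ∑ i, (a i * a i + b i * b i + c i * c i + e i * e i) := by
  set S := ∑ i, (a i + b i + c i + e i) with hS
  have h1 : (L - S) * (L - S) ≤ 2 * (L * L) + 2 * (S * S) := by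
    linarith [mul_self_nonneg (L + S)]
  have h2 : S * S ≤ r * ∑ i, (a i + b i + c i + e i) * (a i + b i + c i + e i) := by
    have h := sq_sum_le_card_mul_sum_sq (s := (Finset.univ : Finset (Fin r)))
      (f := fun i => a i + b i + c i + e i)
    simpa [sq] using h
  have h3 : ∑ i, (a i + b i + c i + e i) * (a i + b i + c i + e i)
      ≤ 4 * ∑ i, (a i * a i + b i * b i + c i * c i + e i * e i) := by
    rw [Finset.mul_sum]
    refine Finset.sum_le_sum fun i _ => ?_
    linarith [mul_self_nonneg (a i - b i), mul_self_nonneg (a i - c i),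
      mul_self_nonneg (a i - e i), mul_self_nonneg (b i - c i), mul_self_nonneg (b i - e i),
      mul_self_nonneg (c i - e i)]
  have h4 := mul_le_mul_of_nonneg_left h3 (Nat.cast_nonneg (α := ℝ) r)
  linarith

theorem eventually_resid_le {s : Config M X r} (hs : StateOk P C s) (hg : ∀ c, P.Good C (s c))
    {d : LData X r} (hd : d.Ok) (hFN : ∀ c, (d.F c).FromNrm C) {n : ℕ} (hn : 0 < n)
    (hle : ∀ c x, d.act c x ≤ (s c).act x) {w : ℝ}
    (he : ∀ c x, d.e c x = d.act c x * (P.Dc (s c) x
      - C.Er ((s c).G : M) x * C.Er ((s c).G : M) x + w))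
    (hFK : ∀ c f, 0 ≤ f → (d.F c).K f ≤ C.K (C.off ((s c).G : M)) f) {a : ℝ} (ha : 0 < a)
    (hFt : ∀ c, ∀ᶠ π : DiscreteQuotient X in atBot,
      ∑ j : π, C.ig ((C.K (C.off ((s c).G : M)) (cellFn π j) - (d.F c).K (cellFn π j))
        * (C.K (C.off ((s c).G : M)) (cellFn π j) - (d.F c).K (cellFn π j))) ≤ a)
    {b : ℝ} (hbad : ∀ c, C.ig ((s c).act - d.act c) ≤ b) {ε : ℝ} (hε : 0 < ε) :
    ∀ᶠ π : DiscreteQuotient X in atBot,
      ∑ c, ∑ j : π, C.ig (resid P C s (d.P n (unitVec π c j))
          * resid P C s (d.P n (unitVec π c j)))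
        ≤ 2 * (d.Tn / n * C.ig d.U)
          + 8 * r * (r * (w ^ 2 + 4 * a + (2 * P.Λ) ^ 4 * b)) + ε := by
  classical
  set D : ℝ := 2 + 32 * r * r with hD
  set ε2 := ε / D with hε2
  have hD0 : 0 < D := by positivity
  have hε2p : 0 < ε2 := div_pos hε hD0
  set z : Fin r → M := fun c => C.off ((s c).G : M) with hz
  have hGs : ∀ c, IsSelfAdjoint ((s c).G : M) := fun c => IsSelfAdjoint.of_nonneg (hs.col c).G_nonneg
  have hznorm : ∀ c, ‖z c‖ ≤ 2 * P.Λ := fun c =>
    norm_off_le P.Λ_pos.le (hs.col c).G_nonneg (hg c).G_le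
  choose Cst hCst0 hCst using fun c => exists_crude_le C hd n c
  choose F' hF's hF'N hF'K hF't using fun c => exists_family C
    (C.off_isSelfAdjoint (hGs c)) (C.Er_off _) (lt_min ha (div_pos hε2p
      (show 0 < Cst c + 1 by linarith [hCst0 c])))
  -- the four error terms
  set Q : Fin r → (C(X, ℝ) →ₗ[ℝ] C(X, ℝ)) := fun c => Klin C (z c) - Flin (d.F c) with hQ
  set Q' : Fin r → (C(X, ℝ) →ₗ[ℝ] C(X, ℝ)) := fun c => Klin C (z c) - Flin (F' c) with hQ'
  have hQ0 : ∀ c f, 0 ≤ f → 0 ≤ Q c f := fun c f hf => by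
    simp only [hQ, LinearMap.sub_apply, Klin_apply, Flin_apply, sub_nonneg]
    exact hFK c f hf
  have hQ'0 : ∀ c f, 0 ≤ f → 0 ≤ Q' c f := fun c f hf => by
    simp only [hQ', LinearMap.sub_apply, Klin_apply, Flin_apply, sub_nonneg]
    exact hF'K c f hf
  have hact : ∀ c x, 0 ≤ d.act c x ∧ d.act c x ≤ 1 := fun c x => by
    rcases hd.act_01 c x with h | h <;> rw [h] <;> norm_num
  have hcell : ∀ c (π : DiscreteQuotient X) (j : π), d.act c * cellFn π j ≤ cellFn π j ∧
      0 ≤ d.act c * cellFn π j := fun c π j => by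
    have h : ∀ x, 0 ≤ cellFn π j x := fun x => ContinuousMap.le_def.1 (cellFn_nonneg π j) x
    exact ⟨ContinuousMap.le_def.2 fun x => by
        simpa using mul_le_of_le_one_left (h x) (hact c x).2,
      ContinuousMap.le_def.2 fun x => by simpa using mul_nonneg (hact c x).1 (h x)⟩
  -- (1) the regularisation
  have e1 : ∀ c, ∀ᶠ π : DiscreteQuotient X in atBot, ∑ c', ∑ j : π,
      C.ig ((w ^ 2 • (1 : C(X, ℝ))) * (d.P n (unitVec π c' j) c * d.P n (unitVec π c' j) c))
        ≤ w ^ 2 + ε2 := fun c => by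
    refine (eventually_sq_le C hd hFN n c (f := w ^ 2 • (1 : C(X, ℝ)))
      (ContinuousMap.le_def.2 fun x => by simp [sq_nonneg]) hε2p).mono
      fun π h => h.trans (add_le_add ?_ le_rfl)
    refine C.ig_le_of_le fun x => ?_
    simpa using mul_le_of_le_one_right (sq_nonneg w) (hact c x).2
  -- (2) the crude tail
  have e2 : ∀ c, ∀ᶠ π : DiscreteQuotient X in atBot, ∑ c', ∑ j : π,
      C.ig (Q' c (d.P n (unitVec π c' j) c) * Q' c (d.P n (unitVec π c' j) c)) ≤ ε2 := fun c => by
    obtain ⟨π0, hπ0⟩ := (hF't c).exists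
    refine (hCst c (Q' c) (hQ'0 c) π0).mono fun π h => h.trans ?_
    have h1 : ∑ i : π0, C.ig (Q' c (cellFn π0 i) * Q' c (cellFn π0 i)) ≤ ε2 / (Cst c + 1) :=
      (le_of_eq (by rfl)).trans (hπ0.trans (min_le_right _ _))
    refine (mul_le_mul_of_nonneg_left h1 (hCst0 c)).trans ?_
    rw [mul_div, div_le_iff₀ (by linarith [hCst0 c])]
    linarith
  -- (3) the difference of the families
  have e3 : ∀ c, ∀ᶠ π : DiscreteQuotient X in atBot, ∑ c', ∑ j : π,
      C.ig (d.act c * ((famDiff (F' c) (d.F c)).K (d.P n (unitVec π c' j) c)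
        * (famDiff (F' c) (d.F c)).K (d.P n (unitVec π c' j) c))) ≤ 4 * a + ε2 := fun c => by
    refine eventually_row_le C hd hFN n c (famDiff_fromNrm (hF'N c) (hFN c))
      (ContinuousMap.le_def.2 fun x => (hact c x).1) ?_ hε2p
    filter_upwards [hFt c, hF't c] with π h1 h2
    have h3 : ∀ j : π, C.ig (d.act c * ((famDiff (F' c) (d.F c)).K (d.act c * cellFn π j)
          * (famDiff (F' c) (d.F c)).K (d.act c * cellFn π j)))
        ≤ 2 * C.ig (Q c (cellFn π j) * Q c (cellFn π j))
          + 2 * C.ig (Q' c (cellFn π j) * Q' c (cellFn π j)) := fun j => by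
      rw [← C.ig_smul, ← C.ig_smul, ← C.ig_add]
      refine C.ig_mono (ContinuousMap.le_def.2 fun x => ?_)
      obtain ⟨hc1, hc0⟩ := hcell c π j
      have u1 := apply_mono (Q c) (hQ0 c) hc1 x
      have u2 := apply_mono (Q' c) (hQ'0 c) hc1 x
      have u3 := ContinuousMap.le_def.1 (hQ0 c _ hc0) x
      have u4 := ContinuousMap.le_def.1 (hQ'0 c _ hc0) x
      have e : (famDiff (F' c) (d.F c)).K (d.act c * cellFn π j) x
          = Q c (d.act c * cellFn π j) x - Q' c (d.act c * cellFn π j) x := by
        simp only [famDiff_K, hQ, hQ', LinearMap.sub_apply, Klin_apply, Flin_apply,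
          ContinuousMap.sub_apply]
        ring
      simp only [ContinuousMap.mul_apply, ContinuousMap.add_apply, ContinuousMap.smul_apply,
        smul_eq_mul, e]
      simp only [ContinuousMap.zero_apply] at u3 u4
      set p := Q c (d.act c * cellFn π j) x
      set q := Q' c (d.act c * cellFn π j) x
      refine (mul_le_of_le_one_left (mul_self_nonneg _) (hact c x).2).trans ?_
      have v1 := mul_self_le_mul_self u3 u1
      have v2 := mul_self_le_mul_self u4 u2
      linarith [mul_self_nonneg (p + q)]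
    refine (Finset.sum_le_sum fun j _ => h3 j).trans ?_
    rw [Finset.sum_add_distrib, ← Finset.mul_sum, ← Finset.mul_sum]
    have h1' : ∑ j : π, C.ig (Q c (cellFn π j) * Q c (cellFn π j)) ≤ a := h1
    have h2' : ∑ j : π, C.ig (Q' c (cellFn π j) * Q' c (cellFn π j)) ≤ a :=
      le_trans (le_of_eq rfl) (h2.trans (min_le_left _ _))
    linarith
  -- (4) the bad part
  have e4 : ∀ c, ∀ᶠ π : DiscreteQuotient X in atBot, ∑ c', ∑ j : π,
      C.ig (((s c).act - d.act c) * ((F' c).K (d.P n (unitVec π c' j) c)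
        * (F' c).K (d.P n (unitVec π c' j) c))) ≤ (2 * P.Λ) ^ 4 * b + ε2 := fun c => by
    have hf : 0 ≤ (s c).act - d.act c := sub_nonneg.2 (ContinuousMap.le_def.2 (hle c))
    refine eventually_row_le C hd hFN n c (hF'N c) hf (Eventually.of_forall fun π => ?_) hε2p
    refine le_trans ?_ (mul_le_mul_of_nonneg_left (hbad c) (by positivity))
    rw [← C.ig_smul, ← C.ig_sum]
    refine C.ig_mono (ContinuousMap.le_def.2 fun x => ?_)
    simp only [ContinuousMap.coe_sum, Finset.sum_apply, ContinuousMap.mul_apply,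
      ContinuousMap.smul_apply, smul_eq_mul]
    rw [← Finset.mul_sum, mul_comm]
    refine mul_le_mul_of_nonneg_right ?_ (ContinuousMap.le_def.1 hf x)
    have hK : ∀ f, 0 ≤ f → 0 ≤ Klin C (z c) f := fun f hf => K_nonneg _ hf
    have h0 : ∀ j : π, 0 ≤ (F' c).K (d.act c * cellFn π j) x := fun j =>
      ContinuousMap.le_def.1 ((F' c).K_nonneg (hF's c).g_nonneg (hcell c π j).2) x
    have h1 : ∀ j : π, (F' c).K (d.act c * cellFn π j) x ≤ Klin C (z c) (cellFn π j) x := fun j =>
      (ContinuousMap.le_def.1 (hF'K c _ (hcell c π j).2) x).trans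
        (apply_mono (Klin C (z c)) hK (hcell c π j).1 x)
    refine (Finset.sum_le_sum fun j _ => mul_self_le_mul_self (h0 j) (h1 j)).trans ?_
    refine (sum_sq_cell_le _ hK π x).trans ?_
    have hone : ‖(1 : C(X, ℝ))‖ ≤ 1 := Tracial.norm_le_of_abs zero_le_one fun x => by simp
    have h2 : |Klin C (z c) 1 x| ≤ (2 * P.Λ) ^ 2 :=
      (abs_K_le (hznorm c) 1 x).trans (mul_le_of_le_one_right (sq_nonneg _) hone)
    rw [← sq, ← sq_abs]
    calc |Klin C (z c) 1 x| ^ 2 ≤ ((2 * P.Λ) ^ 2) ^ 2 := pow_le_pow_left₀ (abs_nonneg _) h2 2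
      _ = (2 * P.Λ) ^ 4 := by ring
  filter_upwards [eventually_residual_le C hd hFN hn hε2p, eventually_all.2 e1, eventually_all.2 e2,
    eventually_all.2 e3, eventually_all.2 e4] with π h0 h1 h2 h3 h4
  set k : Fin r → π → Fin r → C(X, ℝ) := fun c' j => d.P n (unitVec π c' j) with hk
  have hpt : ∀ c' (j : π), C.ig (resid P C s (k c' j) * resid P C s (k c' j))
      ≤ 2 * C.ig (d.L (k c' j) * d.L (k c' j)) + 8 * r * ∑ c,
        (C.ig ((w ^ 2 • (1 : C(X, ℝ))) * (k c' j c * k c' j c))
          + C.ig (Q' c (k c' j c) * Q' c (k c' j c))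
          + C.ig (d.act c * ((famDiff (F' c) (d.F c)).K (k c' j c)
              * (famDiff (F' c) (d.F c)).K (k c' j c)))
          + C.ig (((s c).act - d.act c) * ((F' c).K (k c' j c) * (F' c).K (k c' j c)))) :=
    fun c' j => by
    simp only [← C.ig_add, ← C.ig_sum, ← C.ig_smul]
    refine C.ig_mono (ContinuousMap.le_def.2 fun x => ?_)
    set u := k c' j with hu
    have hid : ∀ c, (s c).act x * (P.Dc (s c) x * u c x - C.K ((s c).G : M) (u c) x)
        = d.Lc c (u c) x - (w * u c x + (s c).act x * Q' c (u c) x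
          + d.act c x * (famDiff (F' c) (d.F c)).K (u c) x
          + ((s c).act x - d.act c x) * (F' c).K (u c) x) := fun c => by
      have hs1 : d.act c * u c = u c := by rw [mul_comm]; exact P_supp hd n _ c
      have hx1 : d.act c x * u c x = u c x := congrArg (fun f : C(X, ℝ) => f x) hs1
      have hx2 : (s c).act x * u c x = u c x := by
        rcases hd.act_01 c x with h | h
        · rw [h, zero_mul] at hx1; rw [← hx1, mul_zero]
        · have h' := hle c x
          rcases (hs.col c).act_01 x with h'' | h''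
          · rw [h, h''] at h'; norm_num at h'
          · rw [h'', one_mul]
      have hL : d.Lc c (u c) x
          = d.act c x * (d.e c x * u c x - (d.F c).K (u c) x) := by
        show (d.act c * (d.e c * (d.act c * u c) - (d.F c).K (d.act c * u c))) x = _
        rw [hs1]
        rfl
      rw [hL, he c x, K_split (hGs c)]
      simp only [hQ', LinearMap.sub_apply, Klin_apply, Flin_apply, famDiff_K, hz,
        ContinuousMap.sub_apply, ContinuousMap.add_apply, ContinuousMap.mul_apply]
      linear_combination (P.Dc (s c) x - C.Er ((s c).G : M) x * C.Er ((s c).G : M) x) * hx2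
        - (P.Dc (s c) x - C.Er ((s c).G : M) x * C.Er ((s c).G : M) x + w) * (d.act c x) * hx1
        - (P.Dc (s c) x - C.Er ((s c).G : M) x * C.Er ((s c).G : M) x + w) * hx1
    have hres : resid P C s u x = d.L u x - ∑ c, (w * u c x + (s c).act x * Q' c (u c) x
          + d.act c x * (famDiff (F' c) (d.F c)).K (u c) x
          + ((s c).act x - d.act c x) * (F' c).K (u c) x) := by
      simp only [resid_apply, ContinuousMap.coe_sum, Finset.sum_apply, ContinuousMap.mul_apply,
        ContinuousMap.sub_apply, hid, Finset.sum_sub_distrib, LData.L, LinearMap.coe_sum,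
        LinearMap.comp_apply, LinearMap.proj_apply]
    simp only [ContinuousMap.mul_apply, ContinuousMap.add_apply, ContinuousMap.smul_apply,
      ContinuousMap.coe_sum, Finset.sum_apply, ContinuousMap.sub_apply, ContinuousMap.one_apply,
      smul_eq_mul, hres, mul_one]
    refine (sq_sub_sum_le _ _ _ _ _).trans ?_
    refine add_le_add le_rfl (mul_le_mul_of_nonneg_left (Finset.sum_le_sum fun c _ => ?_)
      (by positivity))
    have hb' : ((s c).act x - d.act c x) * ((s c).act x - d.act c x)
        ≤ (s c).act x - d.act c x := by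
      have h' := hle c x
      refine mul_le_of_le_one_left (by linarith) ?_
      rcases (hs.col c).act_01 x with h'' | h'' <;> rw [h''] <;> linarith [(hact c x).1]
    have t2 : (s c).act x * (s c).act x ≤ 1 := by
      rcases (hs.col c).act_01 x with h'' | h'' <;> rw [h''] <;> norm_num
    have t3 : d.act c x * d.act c x ≤ d.act c x := mul_le_of_le_one_left (hact c x).1 (hact c x).2
    have q2 := mul_le_mul_of_nonneg_right t2 (mul_self_nonneg (Q' c (u c) x))
    have q3 := mul_le_mul_of_nonneg_right t3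
      (mul_self_nonneg ((famDiff (F' c) (d.F c)).K (u c) x))
    have q4 := mul_le_mul_of_nonneg_right hb' (mul_self_nonneg ((F' c).K (u c) x))
    linarith
  refine (Finset.sum_le_sum fun c' _ => Finset.sum_le_sum fun j _ => hpt c' j).trans ?_
  simp only [Finset.sum_add_distrib, ← Finset.mul_sum]
  have hsw : ∀ (f : Fin r → (c' : Fin r) → π → ℝ) (B : ℝ),
      (∀ c, ∑ c', ∑ j, f c c' j ≤ B) → ∑ c', ∑ j, ∑ c, f c c' j ≤ r * B := fun f B h => by
    have e : ∑ c', ∑ j, ∑ c, f c c' j = ∑ c, ∑ c', ∑ j, f c c' j := by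
      rw [Finset.sum_congr rfl fun c' _ => Finset.sum_comm, Finset.sum_comm]
    rw [e]
    refine (Finset.sum_le_sum fun c _ => h c).trans (le_of_eq ?_)
    simp
  have g1 := hsw (fun c c' j => C.ig ((w ^ 2 • (1 : C(X, ℝ))) * (k c' j c * k c' j c))) _ h1
  have g2 := hsw (fun c c' j => C.ig (Q' c (k c' j c) * Q' c (k c' j c))) _ h2
  have g3 := hsw (fun c c' j => C.ig (d.act c * ((famDiff (F' c) (d.F c)).K (k c' j c)
    * (famDiff (F' c) (d.F c)).K (k c' j c)))) _ h3
  have g4 := hsw (fun c c' j => C.ig (((s c).act - d.act c)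
    * ((F' c).K (k c' j c) * (F' c).K (k c' j c)))) _ h4
  have h8 := mul_le_mul_of_nonneg_left (add_le_add (add_le_add (add_le_add g1 g2) g3) g4)
    (by positivity : (0 : ℝ) ≤ 8 * r)
  have hεD : ε2 * D = ε := by rw [hε2]; field_simp
  rw [hD] at hεD
  linarith

end Vale.Agent.P078.AllMasa.StepAux
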